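import Vale.Agent.P354CB.Ez

/-!
A common development reaches a fixed distance in a chart of fixed size.
-/

open Set Filter Topology Metric

namespace Vale.Agent.P354CB77

open Vale.Agent.P354n
open Vale.Agent.P354CB
open Vale.Agent.P354XJ (inv_cont co_cont on_nhds co_mem)

/-- Continuous induction. -/
theorem ind {P : ℝ → Prop} (o : ∀ s ∈ Icc (0 : ℝ) 1, P s → ∀ᶠ t in 𝓝 s, P t)
    (c : ∀ s ∈ Icc (0 : ℝ) 1, (∀ t ∈ Ico 0 s, P t) → P s) : P 1 := by
  have A : ∀ s ∈ Icc (0 : ℝ) 1, ∀ t ∈ Ico 0 s, P t := by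
    by_contra! n
    obtain ⟨s, hs, t, ht, hP⟩ := n
    have ne : ({t | 0 ≤ t ∧ ¬ P t} : Set ℝ).Nonempty := ⟨t, ht.1, hP⟩
    have bd : BddBelow ({t | 0 ≤ t ∧ ¬ P t} : Set ℝ) := ⟨0, fun _ h => h.1⟩
    set a := sInf ({t | 0 ≤ t ∧ ¬ P t} : Set ℝ)
    have a0 : a ∈ Icc (0 : ℝ) 1 :=
      ⟨le_csInf ne fun _ h => h.1, (csInf_le bd ⟨ht.1, hP⟩).trans (ht.2.le.trans hs.2)⟩
    have pa : P a := c a a0 fun u hu => by
      by_contra m
      exact hu.2.not_ge (csInf_le bd ⟨hu.1, m⟩)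
    obtain ⟨u, hu, k⟩ := mem_closure_iff_nhds.1 (csInf_mem_closure ne bd) _ (o a a0 pa)
    exact k.2 hu
  exact c 1 (right_mem_Icc.2 zero_le_one) (A 1 (right_mem_Icc.2 zero_le_one))

theorem run (T : L3) (hJ : JS) (hK : KEY) : RUN := by
  intro k hk
  obtain ⟨δ, δ0, hδ⟩ := hJ k hk
  have k0 : 0 < k := one_pos.trans_le hk
  refine ⟨min δ (2 / k), lt_min δ0 (by positivity), fun d hd B C e z v ok fit hv => ?_⟩
  obtain ⟨U, ψ, e', m, m', hc, hz, he', mm, hb, hn⟩ := fit
  obtain ⟨V, φ, hV, hR⟩ := T.max d hd B C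
  have v1 : ‖v‖ ≤ δ := hv.trans (min_le_left _ _)
  have v2 : ‖v‖ ≤ 2 / k := hv.trans (min_le_right _ _)
  have seg : ∀ t ∈ Icc (0 : ℝ) 1, z + t • v ∈ tgt e ∧
      Gb (B.N.g e) (z + t • v) (.id ℝ R4) (.id ℝ R4) k := fun t ht => ok _ (by
    rw [mem_closedBall, dist_self_add_left, norm_smul, Real.norm_of_nonneg ht.1]
    exact (mul_le_of_le_one_left (norm_nonneg v) ht.2).trans v2)
  have zt : z ∈ tgt e := by simpa using (seg 0 (left_mem_Icc.2 zero_le_one)).1
  have eq : ∀ x ∈ U, x ∈ V ∧ φ x = ψ x := fun x hx => (hR x (ψ x)).1 ⟨U, ψ, hc, hx, rfl⟩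
  set F : R4 → R4 := fun y => co e' (φ (inv e y)) with hF
  have FF : F =ᶠ[𝓝 z] fun y => co e' (ψ (inv e y)) := by
    filter_upwards [(inv_cont zt).eventually (hc.hull.op.mem_nhds hz)] with y hy
    simp only [hF, (eq _ hy).2]
  have F0 : F z = co e' (ψ (inv e z)) := FF.self_of_nhds
  have hh : 1 / (2 * k) < 1 / k := one_div_lt_one_div_of_lt k0 (by linarith)
  have ln : Continuous fun t : ℝ => z + t • v := by fun_prop
  have key : inv e (z + (1 : ℝ) • v) ∈ V ∧ On e' (φ (inv e (z + (1 : ℝ) • v))) ∧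
      ‖m' (F (z + (1 : ℝ) • v) - F z)‖ < 1 / k := by
    refine ind (P := fun t => inv e (z + t • v) ∈ V ∧ On e' (φ (inv e (z + t • v))) ∧
      ‖m' (F (z + t • v) - F z)‖ < 1 / k) (fun s hs h => ?_) fun s hs h => ?_
    · have c1 : ContinuousAt (fun t : ℝ => inv e (z + t • v)) s :=
        (inv_cont (seg s hs).1).comp (f := fun t : ℝ => z + t • v) ln.continuousAt
      have c2 : ContinuousAt (fun t : ℝ => φ (inv e (z + t • v))) s :=
        (hV.lm _ h.1).1.comp (f := fun t : ℝ => inv e (z + t • v)) c1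
      have c3 : ContinuousAt (fun t : ℝ => F (z + t • v)) s :=
        (co_cont h.2.1).comp (f := fun t : ℝ => φ (inv e (z + t • v))) c2
      have c4 : ContinuousAt (fun t : ℝ => ‖m' (F (z + t • v) - F z)‖) s :=
        (m'.continuous.continuousAt.comp (c3.sub continuousAt_const)).norm
      exact (c1.eventually (hV.hull.op.mem_nhds h.1)).and
        ((c2.eventually (on_nhds h.2.1)).and (c4.eventually (gt_mem_nhds h.2.2)))
    rcases hs.1.eq_or_lt with rfl | s0
    · simp only [zero_smul, add_zero, sub_self, map_zero, norm_zero]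
      exact ⟨(eq _ hz).1, (eq _ hz).2 ▸ he', by positivity⟩
    have rep : ∀ w, w = co e' (ψ (inv e z)) + m (m' (w - F z)) := fun w => by
      rw [(mm _).2, F0, add_sub_cancel]
    have bd := hδ _ _ _ _ _ _ (B.h.gh.st.lor e) (C.h.gh.st.lor e') F z v m m' s v1 hs.2 mm
      (by rwa [FF.fderiv_eq]) fun t ht => by
        have m1 : t ∈ Icc (0 : ℝ) 1 := ⟨ht.1, ht.2.le.trans hs.2⟩
        obtain ⟨h1, h2, h3⟩ := h t ht
        refine ⟨?_, (seg t m1).2, ?_⟩
        · have c1 := inv_cont (seg t m1).1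
          have c2 : ContinuousAt (fun y => φ (inv e y)) (z + t • v) :=
            (hV.lm _ h1).1.comp (f := inv e) c1
          filter_upwards [(B.N.toE e).open_target.mem_nhds (seg t m1).1,
            c1.eventually (hV.hull.op.mem_nhds h1), c2.eventually (on_nhds h2)] with x x1 x2 x3
          refine ⟨x1, co_mem x3, P354YC.iso_iff.1 ?_⟩
          have := (hV.lm _ x2).2 e e' ((B.N.toE e).map_target x1) x3
          rwa [show co e (inv e x) = x from (B.N.toE e).right_inv x1] at this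
        · rw [rep (F (z + t • v))]
          exact (hb _ h3.le).2
    set f : R4 → C.N.pt := fun u => inv e' (co e' (ψ (inv e z)) + m u) with hf
    have fc : ContinuousOn f (closedBall 0 (1 / (2 * k))) := fun u hu =>
      ((inv_cont (hb u ((mem_closedBall_zero_iff.1 hu).trans hh.le)).1).comp
        (f := fun u => co e' (ψ (inv e z)) + m u) (by fun_prop)).continuousWithinAt
    have cp := (isCompact_closedBall (0 : R4) (1 / (2 * k))).image_of_continuousOn fc
    have ev : ∀ᶠ t in 𝓝[<] s, t ∈ Ico 0 s := Ico_mem_nhdsLT s0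
    have fr : ∀ᶠ t in 𝓝[<] s, φ (inv e (z + t • v)) ∈ f '' closedBall 0 (1 / (2 * k)) :=
      ev.mono fun t ht => ⟨_, mem_closedBall_zero_iff.2 (bd t ht), by
        simp only [hf, ← rep]
        exact (C.N.toE e').left_inv (h t ht).2.1⟩
    obtain ⟨G, hG⟩ := Ultrafilter.exists_le (𝓝[<] s)
    obtain ⟨_, ⟨u, hu, rfl⟩, lim⟩ := cp.ultrafilter_le_nhds (G.map fun t => φ (inv e (z + t • v)))
      (le_principal_iff.2 (hG fr))
    have c1 : ContinuousAt (fun t : ℝ => inv e (z + t • v)) s :=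
      (inv_cont (seg s hs).1).comp (f := fun t : ℝ => z + t • v) ln.continuousAt
    have l1 : Tendsto (fun t : ℝ => inv e (z + t • v)) G (𝓝 (inv e (z + s • v))) :=
      c1.tendsto.mono_left (hG.trans nhdsWithin_le_nhds)
    have r := (hR _ _).1 ((hK d hd B C).mem_of_tendsto (l1.prodMk_nhds lim)
      (hG (ev.mono fun t ht => (hR _ _).2 ⟨(h t ht).1, rfl⟩)))
    have u1 := mem_closedBall_zero_iff.1 hu
    have ut := (hb u (u1.trans hh.le)).1
    have r2 : φ (inv e (z + s • v)) = f u := r.2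
    refine ⟨r.1, r2 ▸ (C.N.toE e').map_target ut, ?_⟩
    have : F (z + s • v) = co e' (ψ (inv e z)) + m u := by
      simp only [hF, r2, hf]
      exact (C.N.toE e').right_inv ut
    rw [this, F0, add_sub_cancel_left, (mm u).1]
    exact u1.trans_lt hh
  rw [one_smul] at key
  exact ⟨_, (hR _ _).2 ⟨key.1, rfl⟩⟩

end Vale.Agent.P354CB77
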